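import Vale.Agent.P155.Upgrade

/-!
# P155: circulations of double-dimer loops and loops of macroscopic area are tight on compact parts
-/

namespace Vale.Agent.Results.P155.LoopAreaTightness

open Vale.Agent.P155
open scoped Classical

theorem result (κ : ℕ) : ∃ C : ℝ, ∀ (T : TGraph) (c : Pt) (m : ℕ), 1 ≤ m →
    (∀ f ∈ T.S, InBox c (κ * m) f) →
      0 < (matchings T).card ∧
      (∀ (F : Pt → ℝ) (L : ℝ), 0 ≤ L → (∀ p q, |F p - F q| ≤ L * dst p q) → (∀ p, F p ≠ 0 → Deep T m p) →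
        ∑ σ ∈ matchings T, ∑ τ ∈ matchings T, ∑ O ∈ loops σ τ, circ σ τ F O ^ 2 ≤
          C * L ^ 2 * (m : ℝ) ^ 4 * ((matchings T).card : ℝ) ^ 2) ∧
      ∑ σ ∈ matchings T, ∑ τ ∈ matchings T, ∑ O ∈ loopsDeep σ τ m, area σ τ O ^ 2 ≤
        C * (m : ℝ) ^ 4 * ((matchings T).card : ℝ) ^ 2 ∧
      ∀ θ : ℝ, 0 < θ →
        ∑ σ ∈ matchings T, ∑ τ ∈ matchings T,
          (((loopsDeep σ τ m).filter fun O => θ * (m : ℝ) ^ 2 ≤ |area σ τ O|).card : ℝ) ≤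
        C / θ ^ 2 * ((matchings T).card : ℝ) ^ 2 :=
  circ_area_moment κ

end Vale.Agent.Results.P155.LoopAreaTightness
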